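import Vale.Agent.P224.R2.H627.DExp

/-!
Definitions for the scalar conditions of the odd dimension.
-/

namespace Vale.Agent.P224.R2.H494.OC

open Vale.Agent.P224.R2.H627

set_option linter.unusedSimpArgs false

/-- upper bound of `P / h ^ 3` -/
noncomputable def pU (s t : ℝ) : ℝ :=
  1 / 3 - 21 / 40 * t - 99 / 80 * t * (1 - s ^ 2) + 197 / 100 * t * (1 - s ^ 2) ^ 2
/-- upper bound of `P1 / h ^ 2` -/
noncomputable def aU (s t : ℝ) : ℝ :=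
  1 - 63 / 40 * t - 99 / 20 * t * (1 - s ^ 2) + 197 / 20 * t * (1 - s ^ 2) ^ 2
/-- upper bound of `(P + 2 (1 - h) P1) / h ^ 2` -/
noncomputable def qU (s t : ℝ) : ℝ := (1 - s ^ 2) * pU s t + 2 * s ^ 2 * aU s t
/-- upper bound of the difference -/
noncomputable def dlU (s : ℝ) : ℝ := 67 / 50 - 9 / 5 * (1 - s ^ 2) + 59 / 50 * (1 - s ^ 2) ^ 2
/-- upper bound of `√(h / 2)` -/
noncomputable def SH (s : ℝ) : ℝ := 4565 / 10000 * (1 - s ^ 2) + 2739 / 10000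
/-- upper bound of `√(1 + h)` -/
noncomputable def S2 (s : ℝ) : ℝ := 70711 / 50000 * (1 - s ^ 2 / 4)
/-- upper bound of `T` -/
noncomputable def Tb (s : ℝ) : ℝ := s * (7072 / 10000 + 2928 / 10000 * s ^ 2)

noncomputable def XA (s t : ℝ) : ℝ :=
  (1 + t / 2) * (2 * (501 / 500 * t) * ((1 - s ^ 2) ^ 2 * SH s * pU s t)
    + (501 / 500 * t) * t * ((1 - s ^ 2) ^ 2 * SH s * qU s t))
  + (1 + t) * (1 + t / 2) * (501 / 500 * t) ^ 2 * s * ((1 - s ^ 2) ^ 2 * pU s t)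
noncomputable def XBr (s t : ℝ) : ℝ := (501 / 500 * t) * (1 + 3 * t / 2) * SH s * pU s t
noncomputable def XC1 (s t : ℝ) : ℝ :=
  (1 + 3 * t / 2) * (3 / 2) * (501 / 500 * t) * (1 + t) * s ^ 2 * ((1 - s ^ 2) * SH s * pU s t)
noncomputable def XC0 (s t : ℝ) : ℝ :=
  (1 + 3 * t / 2) * ((501 / 500 * t) ^ 2 * t * (S2 s + 2 * s + s * Tb s) * ((1 - s ^ 2) ^ 2 * pU s t)
    + 1 / 2 * (501 / 500 * t) * (1 + t) * s * (S2 s + s) * ((1 - s ^ 2) * SH s * dlU s)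
    + 9 / 16 * (501 / 500 * t) ^ 2 * t * (S2 s + s) * ((1 - s ^ 2) ^ 2 * qU s t)) + XC1 s t

noncomputable def oU (l u s t : ℝ) : ℝ := 2 * (1 + s) * (s * vW s t + (1 - s) ^ 2 * u - XA s t)
  - l * ((1 + t / 2) * (1 + t)) * s ^ 2 * ((1 - s) * u + (1 - s) * (1 + s) ^ 2 * XBr s t)
noncomputable def oA (l u s t : ℝ) : ℝ := (2 - s ^ 2) ^ 2 * oU l u s t
  + (1 + s) * (1 + 3 * t / 2) * (s ^ 3 * dE s t) - 2 * (1 + s) * (2 - s ^ 2) ^ 2 * XC0 s t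
noncomputable def oB (u s t : ℝ) : ℝ := (1 + s) * (1 + 3 * t / 2)
  * ((2 - s ^ 2) * s * dE s t - 4 * (2 - s ^ 2) ^ 2 * ((1 - s) ^ 2 * u))
  - 2 * (1 + s) * (2 - s ^ 2) ^ 2 * XC1 s t
noncomputable def oV (l u s t : ℝ) : ℝ := 4 * (1 + s) ^ 2 * (s * vW s t + (1 - s) ^ 2 * u - XA s t)
  - l * ((1 + t / 2) * (1 + t)) * s ^ 2 * (2 - s ^ 2) * (u + (1 + s) ^ 2 * XBr s t)
noncomputable def oA4 (l u s t : ℝ) : ℝ := (2 - s ^ 2) ^ 2 * oV l u s t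
  + 2 * (1 + s) ^ 2 * (1 + 3 * t / 2) * (s ^ 3 * dE s t)
  - 4 * (1 + s) ^ 2 * (2 - s ^ 2) ^ 2 * XC0 s t
noncomputable def oB4 (u s t : ℝ) : ℝ := 2 * (1 + s) ^ 2 * (1 + 3 * t / 2)
  * ((2 - s ^ 2) * s * dE s t - 4 * (2 - s ^ 2) ^ 2 * ((1 - s) ^ 2 * u))
  - 4 * (1 + s) ^ 2 * (2 - s ^ 2) ^ 2 * XC1 s t

end Vale.Agent.P224.R2.H494.OC
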